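import Vale.Agent.P108.Sk.Defs
import Vale.Agent.P108.H504.Std

/-!
# P108: stability of the elementary decisions

If two coefficient sequences agree up to `40 k * k^(-dst/2)` on the window of a decision, which is
short compared with its distance `dst` to the base, and the decision is not nearly an equality for
the first sequence, then both sequences have the same outcome.
-/

open MeasureTheory Filter Set Topology

namespace Vale.Agent.P108.H18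

open Vale.Agent.P108 Vale.Agent.P108.Dyn Vale.Agent.P108.H786 P108C Vale.Agent.P108.Sk

/-- stability of a strict inequality which is not nearly an equality -/
lemma transfer {N N' E E' ε w η s : ℝ} (hs0 : 0 ≤ s) (hs1 : s ≤ 1) (hη : 0 < η) (hE : η ≤ E)
    (hw : 0 ≤ w) (hN : |N' - N| ≤ ε) (hE' : |E' - E| ≤ ε) (h : 3 * ε < w * η)
    (hn : ¬ |N / E - (1 + s)| ≤ w) : N < (1 + s) * E ↔ N' < (1 + s) * E' := by
  have hE0 : 0 < E := hη.trans_le hE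
  have h1 := abs_le.1 hN
  have h2 := abs_le.1 hE'
  have h3 : w * η ≤ w * E := mul_le_mul_of_nonneg_left hE hw
  have e : N / E - (1 + s) = (N - (1 + s) * E) / E := by field_simp
  rw [e, abs_div, abs_of_pos hE0, div_le_iff₀ hE0, not_le] at hn
  have h4 : (1 + s) * E' - (1 + s) * E ≤ 2 * ε ∧ -(2 * ε) ≤ (1 + s) * E' - (1 + s) * E := by
    constructor <;> nlinarith
  constructor
  · intro h5
    rw [abs_of_neg (by linarith)] at hn
    linarith [h4.1, h4.2]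
  · intro h5
    by_contra h6
    rw [abs_of_nonneg (by linarith)] at hn
    linarith [h4.1, h4.2]

/-- if the denominator is small and the numerator is not, the outcome is never low -/
lemma transfer_big {N N' E E' ε ν η s : ℝ} (hs0 : 0 ≤ s) (hs1 : s ≤ 1) (hε : 0 ≤ ε)
    (hη : 0 < η) (hE : E ≤ η) (hν : ν ≤ N) (hN : |N' - N| ≤ ε) (hE' : |E' - E| ≤ ε)
    (h : 2 * η + 3 * ε < ν) : N < (1 + s) * E ↔ N' < (1 + s) * E' := by
  have h1 := abs_le.1 hN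
  have h2 := abs_le.1 hE'
  have h3 : (1 + s) * E ≤ 2 * η := by nlinarith
  have h4 : (1 + s) * E' ≤ 2 * (η + ε) := by nlinarith
  constructor
  · intro h5; linarith
  · intro h5; linarith [h1.1, h1.2]

section

variable {k : ℝ}

lemma one_le (hk : (2 : ℝ) ^ 40 ≤ k) : 1 ≤ k := le_trans (by norm_num) hk

lemma sixteen_le (hk : (2 : ℝ) ^ 40 ≤ k) : 16 * k ≤ k ^ (6 / 5 : ℝ) := by
  have hk1 := one_le hk
  have h0 : (0 : ℝ) < k := by linarith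
  have h1 : (16 : ℝ) ≤ k ^ (1 / 5 : ℝ) := by
    have h2 : ((2 : ℝ) ^ 40) ^ (1 / 5 : ℝ) ≤ k ^ (1 / 5 : ℝ) :=
      Real.rpow_le_rpow (by norm_num) hk (by norm_num)
    have h3 : ((2 : ℝ) ^ 40) ^ (1 / 5 : ℝ) = 2 ^ 8 := by
      rw [← Real.rpow_natCast, ← Real.rpow_mul (by norm_num)]
      norm_num
    rw [h3] at h2
    linarith
  have h2 : k ^ (6 / 5 : ℝ) = k ^ (1 / 5 : ℝ) * k := by
    rw [show (6 / 5 : ℝ) = 1 / 5 + 1 by norm_num, Real.rpow_add h0, Real.rpow_one]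
  rw [h2]
  exact mul_le_mul_of_nonneg_right h1 h0.le

/-- `(16 k)^n ≤ k^(δ/25)` if `30 n ≤ δ` -/
lemma pow_le (hk : (2 : ℝ) ^ 40 ≤ k) {n : ℕ} {δ : ℝ} (h : 30 * (n : ℝ) ≤ δ) :
    (16 * k) ^ n ≤ k ^ (δ / 25) := by
  have hk1 := one_le hk
  calc (16 * k) ^ n ≤ (k ^ (6 / 5 : ℝ)) ^ n :=
        pow_le_pow_left₀ (by linarith) (sixteen_le hk) n
    _ = k ^ (6 / 5 * n : ℝ) := by rw [Real.rpow_mul (by linarith), Real.rpow_natCast]
    _ ≤ k ^ (δ / 25) := Real.rpow_le_rpow_of_exponent_le hk1 (by linarith)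

lemma forty_le (hk : (2 : ℝ) ^ 40 ≤ k) {δ : ℝ} (h : 1000 ≤ δ) : 40 * k ≤ k ^ (δ / 500) := by
  have hk1 := one_le hk
  have h40 : (40 : ℝ) ≤ k := le_trans (by norm_num) hk
  calc 40 * k ≤ k * k := mul_le_mul_of_nonneg_right h40 (by linarith)
    _ = k ^ (2 : ℝ) := by rw [Real.rpow_two]; ring
    _ ≤ k ^ (δ / 500) := Real.rpow_le_rpow_of_exponent_le hk1 (by linarith)

/-- two sequences of coefficients which are close on `[p, q]` -/
lemma D_close (hk : (2 : ℝ) ^ 40 ≤ k) {a a' : ℤ → ℝ} (ha : ∀ j, |a j| + 1 ≤ 8 * k)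
    (ha' : ∀ j, |a' j| + 1 ≤ 8 * k) {δ : ℝ} (hδ : 1000 ≤ δ) {p q : ℤ}
    (hpq : 30 * ((q + 1 - p : ℤ) : ℝ) ≤ δ)
    (h : ∀ l, p ≤ l → l ≤ q → |a' l - a l| ≤ 40 * k * k ^ (-(δ / 2))) :
    |D a' p q - D a p q| ≤ k ^ (-(2 / 5 * δ)) := by
  have hk1 := one_le hk
  have h0 : (0 : ℝ) < k := by linarith
  rcases lt_or_ge q p with hq | hq
  · have : D a' p q = D a p q := H504.D_congr fun j h1 h2 => by omega
    rw [this, sub_self, abs_zero]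
    positivity
  obtain ⟨n, rfl⟩ := Int.le.dest hq
  have h1 := H504.abs_D_sub_le (a := a) (a' := a') (p := p) (q := p + n) (M := 8 * k)
    (by linarith) (fun j _ _ => ha j) (fun j _ _ => ha' j)
  have e : (p + (n : ℤ) - p).toNat = n := by omega
  rw [e] at h1
  have hcard : (Finset.Icc p (p + (n : ℤ))).card = n + 1 := by
    rw [Int.card_Icc]; omega
  have h2 : ∑ l ∈ Finset.Icc p (p + (n : ℤ)), |a' l - a l| ≤
      (n + 1 : ℕ) • (40 * k * k ^ (-(δ / 2))) := by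
    rw [← hcard]
    refine Finset.sum_le_card_nsmul _ _ _ fun l hl => ?_
    have hl' := Finset.mem_Icc.1 hl
    exact h l hl'.1 hl'.2
  rw [nsmul_eq_mul] at h2
  have h3 : ((n + 1 : ℕ) : ℝ) ≤ 2 ^ n := by
    exact_mod_cast Nat.lt_pow_self (n := n) (by norm_num : 1 < 2)
  have hn : 30 * (n : ℝ) ≤ δ := by
    push_cast at hpq
    linarith
  have h5 : (8 * k) ^ n * 2 ^ n ≤ k ^ (δ / 25) := by
    rw [← mul_pow]
    have : (8 * k * 2) = 16 * k := by ring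
    rw [this]
    exact pow_le hk hn
  have h6 := forty_le hk hδ
  have hp : (0 : ℝ) < k ^ (-(δ / 2)) := Real.rpow_pos_of_pos h0 _
  calc |D a' p (p + n) - D a p (p + n)|
      ≤ (8 * k) ^ n * ∑ l ∈ Finset.Icc p (p + (n : ℤ)), |a' l - a l| := h1
    _ ≤ (8 * k) ^ n * (((n + 1 : ℕ) : ℝ) * (40 * k * k ^ (-(δ / 2)))) :=
        mul_le_mul_of_nonneg_left h2 (by positivity)
    _ ≤ (8 * k) ^ n * (2 ^ n * (40 * k * k ^ (-(δ / 2)))) := by gcongr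
    _ = ((8 * k) ^ n * 2 ^ n) * (40 * k) * k ^ (-(δ / 2)) := by ring
    _ ≤ k ^ (δ / 25) * k ^ (δ / 500) * k ^ (-(δ / 2)) := by gcongr
    _ = k ^ (δ / 25 + δ / 500 + -(δ / 2)) := by rw [Real.rpow_add h0, Real.rpow_add h0]
    _ ≤ k ^ (-(2 / 5 * δ)) := Real.rpow_le_rpow_of_exponent_le hk1 (by linarith)

/-- trivial bound -/
lemma D_le (hk : (2 : ℝ) ^ 40 ≤ k) {a : ℤ → ℝ} (ha : ∀ j, |a j| + 1 ≤ 8 * k)
    {δ : ℝ} (hδ : 0 ≤ δ) {p q : ℤ} (hpq : 30 * ((q + 1 - p : ℤ) : ℝ) ≤ δ) :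
    |D a p q| ≤ k ^ (δ / 25) := by
  have hk1 := one_le hk
  have h1 := H504.abs_D_le (a := a) (p := p) (q := q) (M := 8 * k) (by linarith)
    (fun j _ _ => ha j)
  refine h1.trans ?_
  have h2 : (8 * k) ^ (q + 1 - p).toNat ≤ (16 * k) ^ (q + 1 - p).toNat :=
    pow_le_pow_left₀ (by linarith) (by linarith) _
  refine h2.trans (pow_le hk ?_)
  rcases le_or_gt 0 (q + 1 - p) with h | h
  · have e : (((q + 1 - p).toNat : ℕ) : ℝ) = ((q + 1 - p : ℤ) : ℝ) := by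
      exact_mod_cast Int.toNat_of_nonneg h
    rw [e]; exact hpq
  · have e : (q + 1 - p).toNat = 0 := by omega
    rw [e]; simpa using hδ

/-- numbers: the width of the undecided zone beats the perturbation -/
lemma num1 (hk : (2 : ℝ) ^ 40 ≤ k) {δ : ℝ} (hδ : 1000 ≤ δ) :
    3 * k ^ (-(3 / 10 * δ)) < k ^ (-(δ / 12)) * k ^ (-(δ / 5)) := by
  have hk1 := one_le hk
  have h0 : (0 : ℝ) < k := by linarith
  have h3 : (3 : ℝ) < k := lt_of_lt_of_le (by norm_num) hk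
  rw [← Real.rpow_add h0]
  calc 3 * k ^ (-(3 / 10 * δ)) < k * k ^ (-(3 / 10 * δ)) :=
        mul_lt_mul_of_pos_right h3 (Real.rpow_pos_of_pos h0 _)
    _ = k ^ (1 + -(3 / 10 * δ)) := by rw [Real.rpow_add h0, Real.rpow_one]
    _ ≤ _ := Real.rpow_le_rpow_of_exponent_le hk1 (by linarith)

lemma num2 (hk : (2 : ℝ) ^ 40 ≤ k) {δ : ℝ} (hδ : 1000 ≤ δ) :
    2 * k ^ (-(δ / 5)) + 3 * k ^ (-(3 / 10 * δ)) < k ^ (-(δ / 10)) := by
  have hk1 := one_le hk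
  have h0 : (0 : ℝ) < k := by linarith
  have h5 : (5 : ℝ) < k := lt_of_lt_of_le (by norm_num) hk
  have h1 : k ^ (-(3 / 10 * δ)) ≤ k ^ (-(δ / 5)) :=
    Real.rpow_le_rpow_of_exponent_le hk1 (by linarith)
  calc 2 * k ^ (-(δ / 5)) + 3 * k ^ (-(3 / 10 * δ)) ≤ 5 * k ^ (-(δ / 5)) := by linarith
    _ < k * k ^ (-(δ / 5)) := mul_lt_mul_of_pos_right h5 (Real.rpow_pos_of_pos h0 _)
    _ = k ^ (1 + -(δ / 5)) := by rw [Real.rpow_add h0, Real.rpow_one]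
    _ ≤ _ := Real.rpow_le_rpow_of_exponent_le hk1 (by linarith)

lemma mul_eps (hk : (2 : ℝ) ^ 40 ≤ k) {δ c : ℝ} (hδ : 1000 ≤ δ) (hc : c ≤ 100) :
    k ^ c * k ^ (-(2 / 5 * δ)) ≤ k ^ (-(3 / 10 * δ)) := by
  have hk1 := one_le hk
  have h0 : (0 : ℝ) < k := by linarith
  rw [← Real.rpow_add h0]
  exact Real.rpow_le_rpow_of_exponent_le hk1 (by linarith)

lemma eps_le (hk : (2 : ℝ) ^ 40 ≤ k) {δ : ℝ} (hδ : 1000 ≤ δ) :
    k ^ (-(2 / 5 * δ)) ≤ k ^ (-(3 / 10 * δ)) :=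
  Real.rpow_le_rpow_of_exponent_le (one_le hk) (by linarith)

/-- decisions about one coefficient: constant denominator `≥ 1` -/
lemma low_const (hk : (2 : ℝ) ^ 40 ≤ k) {s : ℝ} (hs0 : 0 ≤ s) (hs1 : s ≤ 1) {δ : ℝ}
    (hδ : 1000 ≤ δ) {N N' E : ℝ} (hE : 1 ≤ E) (hN : |N' - N| ≤ k ^ (-(2 / 5 * δ)))
    (hn : ¬ |N / E - (1 + s)| ≤ k ^ (-(δ / 12))) : N < (1 + s) * E ↔ N' < (1 + s) * E := by
  have hk1 := one_le hk
  have h0 : (0 : ℝ) < k := by linarith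
  have h1 : k ^ (-(δ / 5)) ≤ 1 := Real.rpow_le_one_of_one_le_of_nonpos hk1 (by linarith)
  refine transfer hs0 hs1 (Real.rpow_pos_of_pos h0 (-(δ / 5))) (h1.trans hE)
    (Real.rpow_nonneg h0.le _) (hN.trans (eps_le hk hδ)) ?_ (num1 hk hδ) hn
  rw [sub_self, abs_zero]
  exact Real.rpow_nonneg h0.le _

lemma abs_abs_sub (x y : ℝ) : |(|x| - |y|)| ≤ |x - y| := abs_abs_sub_abs_le_abs_sub x y

/-- cone decisions: `N = |D i j|`, `E = k^(β/2) |D'|` with `1 ≤ M^n (|D i j| + |D'|)` -/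
lemma low_cone (hk : (2 : ℝ) ^ 40 ≤ k) {s : ℝ} (hs0 : 0 ≤ s) (hs1 : s ≤ 1) {δ : ℝ}
    (hδ : 1000 ≤ δ) {x y x' y' : ℝ} (hx : |x' - x| ≤ k ^ (-(2 / 5 * δ)))
    (hy : |y' - y| ≤ k ^ (-(2 / 5 * δ))) (h1 : 1 ≤ k ^ (δ / 25) * (|x| + |y|))
    (hn : ¬ |(|x| / (k ^ (cβ / 2) * |y|)) - (1 + s)| ≤ k ^ (-(δ / 12))) :
    |x| < (1 + s) * (k ^ (cβ / 2) * |y|) ↔ |x'| < (1 + s) * (k ^ (cβ / 2) * |y'|) := by
  have hk1 := one_le hk
  have h0 : (0 : ℝ) < k := by linarith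
  have hx' : |(|x'| - |x|)| ≤ k ^ (-(3 / 10 * δ)) :=
    ((abs_abs_sub _ _).trans hx).trans (eps_le hk hδ)
  have hy' : |(k ^ (cβ / 2) * |y'| - k ^ (cβ / 2) * |y|)| ≤ k ^ (-(3 / 10 * δ)) := by
    rw [← mul_sub, abs_mul, abs_of_nonneg (Real.rpow_nonneg h0.le _)]
    refine le_trans (mul_le_mul_of_nonneg_left ((abs_abs_sub _ _).trans hy)
      (Real.rpow_nonneg h0.le _)) (mul_eps hk hδ (by norm_num))
  rcases le_or_gt (k ^ (-(δ / 5))) (k ^ (cβ / 2) * |y|) with hE | hE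
  · exact transfer hs0 hs1 (Real.rpow_pos_of_pos h0 (-(δ / 5))) hE (Real.rpow_nonneg h0.le _)
      hx' hy' (num1 hk hδ) hn
  · refine transfer_big hs0 hs1 (Real.rpow_nonneg h0.le _) (Real.rpow_pos_of_pos h0 (-(δ / 5)))
      hE.le ?_ hx' hy' (num2 hk hδ)
    -- lower bound of the numerator
    have hβ : 1 ≤ k ^ (cβ / 2) := Real.one_le_rpow hk1 (by norm_num)
    have hy1 : |y| ≤ k ^ (-(δ / 5)) := by
      refine le_trans ?_ hE.le
      nlinarith [abs_nonneg y]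
    have h2 : k ^ (δ / 25) * |y| ≤ 1 / 2 := by
      calc k ^ (δ / 25) * |y| ≤ k ^ (δ / 25) * k ^ (-(δ / 5)) := by gcongr
        _ = k ^ (δ / 25 + -(δ / 5)) := by rw [Real.rpow_add h0]
        _ ≤ k ^ (-1 : ℝ) := Real.rpow_le_rpow_of_exponent_le hk1 (by linarith)
        _ = k⁻¹ := Real.rpow_neg_one k
        _ ≤ (2 : ℝ)⁻¹ := inv_anti₀ (by norm_num) (le_trans (by norm_num) hk)
        _ = 1 / 2 := by norm_num
    have h3 : 1 / 2 ≤ k ^ (δ / 25) * |x| := by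
      rw [mul_add] at h1; linarith
    have h4 : k ^ (-(δ / 10)) * (2 * k ^ (δ / 25)) ≤ 1 := by
      calc k ^ (-(δ / 10)) * (2 * k ^ (δ / 25)) ≤ k ^ (-(δ / 10)) * (k * k ^ (δ / 25)) := by
            gcongr
            exact le_trans (by norm_num) hk
        _ = k ^ (-(δ / 10) + (1 + δ / 25)) := by
            rw [Real.rpow_add h0, Real.rpow_add h0, Real.rpow_one]
        _ ≤ 1 := Real.rpow_le_one_of_one_le_of_nonpos hk1 (by linarith)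
    have h5 : 0 < k ^ (δ / 25) := Real.rpow_pos_of_pos h0 _
    by_contra h6
    rw [not_le] at h6
    have h7 : k ^ (δ / 25) * |x| < k ^ (δ / 25) * k ^ (-(δ / 10)) :=
      mul_lt_mul_of_pos_left h6 h5
    nlinarith

/-- peak decisions: `E = κ |x1| |y1|` with `κ = k^(-a R)`, `60 a R ≤ δ`, `|x1|, |y1| ≥ 1` -/
lemma low_pk (hk : (2 : ℝ) ^ 40 ≤ k) {s : ℝ} (hs0 : 0 ≤ s) (hs1 : s ≤ 1) {δ : ℝ}
    (hδ : 1000 ≤ δ) {r x y u x' y' u' : ℝ} (hr0 : 0 ≤ r) (hr : 6 * r ≤ δ)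
    (hu : |u' - u| ≤ k ^ (-(2 / 5 * δ)))
    (hx : |x' - x| ≤ k ^ (-(2 / 5 * δ))) (hy : |y' - y| ≤ k ^ (-(2 / 5 * δ)))
    (hx1 : 1 ≤ |x|) (hy1 : 1 ≤ |y|) (hx2 : |x'| ≤ k ^ (δ / 25)) (hy2 : |y| ≤ k ^ (δ / 25))
    (hn : ¬ |(|u| / (k ^ (-r) * (|x| * |y|))) - (1 + s)| ≤ k ^ (-(δ / 12))) :
    |u| < (1 + s) * (k ^ (-r) * (|x| * |y|)) ↔
      |u'| < (1 + s) * (k ^ (-r) * (|x'| * |y'|)) := by
  have hk1 := one_le hk
  have h0 : (0 : ℝ) < k := by linarith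
  have hu' : |(|u'| - |u|)| ≤ k ^ (-(3 / 10 * δ)) :=
    ((abs_abs_sub _ _).trans hu).trans (eps_le hk hδ)
  have hκ0 : 0 < k ^ (-r) := Real.rpow_pos_of_pos h0 _
  have hκ1 : k ^ (-r) ≤ 1 := Real.rpow_le_one_of_one_le_of_nonpos hk1 (by linarith)
  have h2 : |(|x'| * |y'| - |x| * |y|)| ≤ k ^ (-(3 / 10 * δ)) := by
    have e : |x'| * |y'| - |x| * |y| = |x'| * (|y'| - |y|) + (|x'| - |x|) * |y| := by ring
    rw [e]
    have hA : |(|x'| * (|y'| - |y|))| ≤ k ^ (δ / 25) * k ^ (-(2 / 5 * δ)) := by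
      rw [abs_mul, abs_abs]
      exact mul_le_mul hx2 ((abs_abs_sub _ _).trans hy) (abs_nonneg _)
        (Real.rpow_nonneg h0.le _)
    have hB : |((|x'| - |x|) * |y|)| ≤ k ^ (-(2 / 5 * δ)) * k ^ (δ / 25) := by
      rw [abs_mul, abs_abs]
      exact mul_le_mul ((abs_abs_sub _ _).trans hx) hy2 (abs_nonneg _)
        (Real.rpow_nonneg h0.le _)
    have hC : 2 * (k ^ (δ / 25) * k ^ (-(2 / 5 * δ))) ≤ k ^ (-(3 / 10 * δ)) := by
      calc 2 * (k ^ (δ / 25) * k ^ (-(2 / 5 * δ)))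
          ≤ k * (k ^ (δ / 25) * k ^ (-(2 / 5 * δ))) := by
            gcongr
            exact le_trans (by norm_num) hk
        _ = k ^ (1 + (δ / 25 + -(2 / 5 * δ))) := by
            rw [Real.rpow_add h0, Real.rpow_add h0, Real.rpow_one]
        _ ≤ _ := Real.rpow_le_rpow_of_exponent_le hk1 (by linarith)
    calc _ ≤ |(|x'| * (|y'| - |y|))| + |((|x'| - |x|) * |y|)| := abs_add_le _ _
      _ ≤ k ^ (δ / 25) * k ^ (-(2 / 5 * δ)) + k ^ (-(2 / 5 * δ)) * k ^ (δ / 25) :=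
          add_le_add hA hB
      _ = 2 * (k ^ (δ / 25) * k ^ (-(2 / 5 * δ))) := by ring
      _ ≤ _ := hC
  have hE' : |(k ^ (-r) * (|x'| * |y'|) - k ^ (-r) * (|x| * |y|))| ≤ k ^ (-(3 / 10 * δ)) := by
    rw [← mul_sub, abs_mul, abs_of_pos hκ0]
    nlinarith [abs_nonneg (|x'| * |y'| - |x| * |y|)]
  have hE : k ^ (-(δ / 5)) ≤ k ^ (-r) * (|x| * |y|) := by
    have h3 : k ^ (-(δ / 5)) ≤ k ^ (-r) := Real.rpow_le_rpow_of_exponent_le hk1 (by linarith)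
    have h4 : 1 ≤ |x| * |y| := one_le_mul_of_one_le_of_one_le hx1 hy1
    nlinarith
  exact transfer hs0 hs1 (Real.rpow_pos_of_pos h0 (-(δ / 5))) hE (Real.rpow_nonneg h0.le _)
    hu' hE' (num1 hk hδ) hn

end

end Vale.Agent.P108.H18
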