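import Vale.Agent.P108.Sk.Blocks
import Vale.Agent.P108.H18.Low

/-!
# P108: block [FREEZE]

The defects far from the base are the same for two orbits which are close near the base, if the
decisions of the first one are not nearly equalities.
-/

open MeasureTheory Filter Set Topology

namespace Vale.Agent.P108.H18

open Vale.Agent.P108 Vale.Agent.P108.Dyn Vale.Agent.P108.H786 P108C Vale.Agent.P108.Sk

/-- a window `[p, q]` at distance `≥ 98 R` from the base, of length `≤ 3 R`, on which the two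
sequences are close -/
structure Win (k : ℝ) (a a' : ℤ → ℝ) (R : ℕ) (p q : ℤ) : Prop where
  le : p ≤ q
  far : 98 * (R : ℤ) ≤ max p (-q)
  short : q - p + 1 ≤ 3 * R
  close : ∀ l, p ≤ l → l ≤ q → |a' l - a l| ≤ 40 * k * k ^ (-(|(l : ℝ)| / 2))

lemma Win.mono {k : ℝ} {a a' : ℤ → ℝ} {R : ℕ} {p q p' q' : ℤ} (h : Win k a a' R p q)
    (h1 : p ≤ p') (h2 : p' ≤ q') (h3 : q' ≤ q) : Win k a a' R p' q' := by
  refine ⟨h2, ?_, ?_, fun l hl1 hl2 => h.close l (h1.trans hl1) (hl2.trans h3)⟩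
  · have := h.far
    omega
  · have := h.short
    omega

/-- the sequences and the constants -/
structure Ctx (k s : ℝ) (a a' : ℤ → ℝ) (R : ℕ) : Prop where
  hk : (2 : ℝ) ^ 40 ≤ k
  hs0 : 0 ≤ s
  hs1 : s ≤ 1
  ha : ∀ j, |a j| + 1 ≤ 8 * k
  ha' : ∀ j, |a' j| + 1 ≤ 8 * k
  hR : 1000 ≤ R
  hs0R : Sk.s0 k ≤ R
  near : ∀ d : Dec, d.Adm k → ¬ |d.num a / d.den k a - (1 + s)| ≤ k ^ (-((d.dst : ℝ) / 12))

section

variable {k s : ℝ} {a a' : ℤ → ℝ} {R : ℕ} {p q : ℤ}

/-- the distance of a window, as a real number -/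
lemma Win.delta (h : Win k a a' R p q) (C : Ctx k s a a' R) :
    1000 ≤ ((max p (-q) : ℤ) : ℝ) ∧ 30 * ((q + 1 - p : ℤ) : ℝ) ≤ ((max p (-q) : ℤ) : ℝ) ∧
      98 * (R : ℝ) ≤ ((max p (-q) : ℤ) : ℝ) := by
  have h1 := h.far
  have h2 := h.short
  have h3 := C.hR
  refine ⟨?_, ?_, ?_⟩
  · have : (1000 : ℤ) ≤ max p (-q) := by omega
    exact_mod_cast this
  · have : 30 * (q + 1 - p) ≤ max p (-q) := by omega
    exact_mod_cast this
  · exact_mod_cast h1

lemma Win.close' (h : Win k a a' R p q) (C : Ctx k s a a' R) {l : ℤ} (h1 : p ≤ l) (h2 : l ≤ q) :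
    |a' l - a l| ≤ 40 * k * k ^ (-(((max p (-q) : ℤ) : ℝ) / 2)) := by
  have hk1 := one_le C.hk
  refine (h.close l h1 h2).trans ?_
  have h3 : ((max p (-q) : ℤ) : ℝ) ≤ |(l : ℝ)| := by
    have h4 : max p (-q) ≤ |l| := by
      refine max_le (h1.trans (le_abs_self l)) ?_
      have := neg_le_abs l
      omega
    have h5 : ((|l| : ℤ) : ℝ) = |(l : ℝ)| := Int.cast_abs
    rw [← h5]
    exact_mod_cast h4
  have h6 : k ^ (-(|(l : ℝ)| / 2)) ≤ k ^ (-(((max p (-q) : ℤ) : ℝ) / 2)) :=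
    Real.rpow_le_rpow_of_exponent_le hk1 (by linarith)
  exact mul_le_mul_of_nonneg_left h6 (by linarith)

/-- continuants of subwindows are close -/
lemma Win.D_close (h : Win k a a' R p q) (C : Ctx k s a a' R) {u v : ℤ} (h1 : p ≤ u)
    (h2 : v ≤ q) : |D a' u v - D a u v| ≤ k ^ (-(2 / 5 * ((max p (-q) : ℤ) : ℝ))) := by
  obtain ⟨hd1, hd2, hd3⟩ := h.delta C
  refine H18.D_close C.hk C.ha C.ha' hd1 ?_ fun l hl1 hl2 => h.close' C (by omega) (by omega)
  have : ((v + 1 - u : ℤ) : ℝ) ≤ ((q + 1 - p : ℤ) : ℝ) := by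
    have : v + 1 - u ≤ q + 1 - p := by omega
    exact_mod_cast this
  linarith

lemma Win.D_le (h : Win k a a' R p q) (C : Ctx k s a a' R) {u v : ℤ} (h1 : p ≤ u)
    (h2 : v ≤ q) : |D a u v| ≤ k ^ (((max p (-q) : ℤ) : ℝ) / 25) ∧
      |D a' u v| ≤ k ^ (((max p (-q) : ℤ) : ℝ) / 25) := by
  obtain ⟨hd1, hd2, hd3⟩ := h.delta C
  have : ((v + 1 - u : ℤ) : ℝ) ≤ ((q + 1 - p : ℤ) : ℝ) := by
    have : v + 1 - u ≤ q + 1 - p := by omega
    exact_mod_cast this
  exact ⟨H18.D_le C.hk C.ha (by linarith) (by linarith),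
    H18.D_le C.hk C.ha' (by linarith) (by linarith)⟩

lemma abs_sub_one_le (h : Win k a a' R p q) (C : Ctx k s a a' R) {l : ℤ} (h1 : p ≤ l)
    (h2 : l ≤ q) : |(|a' l| - |a l|)| ≤ k ^ (-(2 / 5 * ((max p (-q) : ℤ) : ℝ))) := by
  have h3 := h.D_close C (u := l) (v := l) h1 h2
  have e1 : D a' l l = a' l := H504.D_self a' l
  have e2 : D a l l = a l := H504.D_self a l
  rw [e1, e2] at h3
  exact (abs_abs_sub _ _).trans h3

lemma low_crit (C : Ctx k s a a' R) (h : Win k a a' R p p) :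
    Low k s a (.crit p) ↔ Low k s a' (.crit p) := by
  obtain ⟨hd1, hd2, hd3⟩ := h.delta C
  have hn := C.near (.crit p) ⟨le_rfl, by
      have := h.far; have := C.hs0R; simp only [Dec.dst, Dec.lo, Dec.hi]; omega, by
      have := h.far; have := C.hR; simp only [Dec.dst, Dec.lo, Dec.hi]; omega, trivial⟩
  exact low_const C.hk C.hs0 C.hs1 hd1 (Real.one_le_rpow (one_le C.hk) (by norm_num))
    (abs_sub_one_le h C le_rfl le_rfl) hn

lemma low_nc (C : Ctx k s a a' R) (h : Win k a a' R p p) :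
    Low k s a (.nc p) ↔ Low k s a' (.nc p) := by
  obtain ⟨hd1, hd2, hd3⟩ := h.delta C
  have hn := C.near (.nc p) ⟨le_rfl, by
      have := h.far; have := C.hs0R; simp only [Dec.dst, Dec.lo, Dec.hi]; omega, by
      have := h.far; have := C.hR; simp only [Dec.dst, Dec.lo, Dec.hi]; omega, trivial⟩
  exact low_const C.hk C.hs0 C.hs1 hd1 (Real.one_le_rpow (one_le C.hk) (by norm_num))
    (abs_sub_one_le h C le_rfl le_rfl) hn

lemma low_gr (C : Ctx k s a a' R) (h : Win k a a' R p q) :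
    Low k s a (.gr p q) ↔ Low k s a' (.gr p q) := by
  obtain ⟨hd1, hd2, hd3⟩ := h.delta C
  have hn := C.near (.gr p q) ⟨h.le, by
      have := h.far; have := C.hs0R; simp only [Dec.dst, Dec.lo, Dec.hi]; omega, by
      have := h.far; have := h.short; have := C.hR
      simp only [Dec.dst, Dec.lo, Dec.hi]; omega, trivial⟩
  refine low_const C.hk C.hs0 C.hs1 hd1 (Real.one_le_rpow (one_le C.hk) ?_)
    ((abs_abs_sub _ _).trans (h.D_close C le_rfl le_rfl)) hn
  have h1 : (0 : ℝ) ≤ ((q + 1 - p : ℤ) : ℝ) := by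
    have := h.le
    have : (0 : ℤ) ≤ q + 1 - p := by omega
    exact_mod_cast this
  exact mul_nonneg (by norm_num) h1

lemma low_c1 (C : Ctx k s a a' R) (h : Win k a a' R p q) :
    Low k s a (.c1 p q) ↔ Low k s a' (.c1 p q) := by
  obtain ⟨hd1, hd2, hd3⟩ := h.delta C
  have hn := C.near (.c1 p q) ⟨h.le, by
      have := h.far; have := C.hs0R; simp only [Dec.dst, Dec.lo, Dec.hi]; omega, by
      have := h.far; have := h.short; have := C.hR
      simp only [Dec.dst, Dec.lo, Dec.hi]; omega, trivial⟩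
  refine low_cone C.hk C.hs0 C.hs1 hd1 (h.D_close C le_rfl le_rfl)
    (h.D_close C le_rfl (by omega)) ?_ hn
  have h1 := H504.D_wronskian_right a (u := p) (r := p + 1) (j := q) (by omega) (by
    have := h.le; omega)
  have e : p + 1 - 2 = p - 1 := by ring
  rw [e, H504.D_empty] at h1
  have h2 := (h.D_le C (u := p + 1) (v := q) (by omega) le_rfl).1
  have h3 := (h.D_le C (u := p + 1) (v := q - 1) (by omega) (by omega)).1
  calc (1 : ℝ) = |D a p (q - 1) * D a (p + 1) q - D a p q * D a (p + 1) (q - 1)| := by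
        rw [h1, abs_one]
    _ ≤ |D a p (q - 1) * D a (p + 1) q| + |D a p q * D a (p + 1) (q - 1)| := abs_sub _ _
    _ = |D a p (q - 1)| * |D a (p + 1) q| + |D a p q| * |D a (p + 1) (q - 1)| := by
        rw [abs_mul, abs_mul]
    _ ≤ |D a p (q - 1)| * k ^ (((max p (-q) : ℤ) : ℝ) / 25) +
        |D a p q| * k ^ (((max p (-q) : ℤ) : ℝ) / 25) := by gcongr
    _ = k ^ (((max p (-q) : ℤ) : ℝ) / 25) * (|D a p q| + |D a p (q - 1)|) := by ring

lemma low_c2 (C : Ctx k s a a' R) (h : Win k a a' R p q) :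
    Low k s a (.c2 p q) ↔ Low k s a' (.c2 p q) := by
  obtain ⟨hd1, hd2, hd3⟩ := h.delta C
  have hn := C.near (.c2 p q) ⟨h.le, by
      have := h.far; have := C.hs0R; simp only [Dec.dst, Dec.lo, Dec.hi]; omega, by
      have := h.far; have := h.short; have := C.hR
      simp only [Dec.dst, Dec.lo, Dec.hi]; omega, trivial⟩
  refine low_cone C.hk C.hs0 C.hs1 hd1 (h.D_close C le_rfl le_rfl)
    (h.D_close C (by omega) le_rfl) ?_ hn
  have h1 := H504.D_wronskian_left a (r := q - 1) (v := q) (j := p) (by omega) (by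
    have := h.le; omega)
  have e : q - 1 + 2 = q + 1 := by ring
  rw [e, H504.D_empty'] at h1
  have h2 := (h.D_le C (u := p) (v := q - 1) le_rfl (by omega)).1
  have h3 := (h.D_le C (u := p + 1) (v := q - 1) (by omega) (by omega)).1
  calc (1 : ℝ) = |D a (p + 1) q * D a p (q - 1) - D a p q * D a (p + 1) (q - 1)| := by
        rw [h1, abs_one]
    _ ≤ |D a (p + 1) q * D a p (q - 1)| + |D a p q * D a (p + 1) (q - 1)| := abs_sub _ _
    _ = |D a (p + 1) q| * |D a p (q - 1)| + |D a p q| * |D a (p + 1) (q - 1)| := by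
        rw [abs_mul, abs_mul]
    _ ≤ |D a (p + 1) q| * k ^ (((max p (-q) : ℤ) : ℝ) / 25) +
        |D a p q| * k ^ (((max p (-q) : ℤ) : ℝ) / 25) := by gcongr
    _ = k ^ (((max p (-q) : ℤ) : ℝ) / 25) * (|D a p q| + |D a (p + 1) q|) := by ring

lemma one_le_of_not_low (hk : 1 ≤ k) (hs : 0 ≤ s) {a : ℤ → ℝ} {p q : ℤ} (h : p - 1 ≤ q)
    (hn : ¬ Low k s a (.gr p q)) : 1 ≤ |D a p q| := by
  unfold Low at hn
  simp only [Dec.num, Dec.den, not_lt] at hn
  refine le_trans ?_ hn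
  have h1 : (0 : ℝ) ≤ ((q + 1 - p : ℤ) : ℝ) := by
    have : (0 : ℤ) ≤ q + 1 - p := by omega
    exact_mod_cast this
  have h2 : 1 ≤ k ^ ((1 - cd) * ((q + 1 - p : ℤ) : ℝ)) :=
    Real.one_le_rpow hk (mul_nonneg (by norm_num) h1)
  nlinarith

lemma low_pk_iff (C : Ctx k s a a' R) {m : ℤ} (h : Win k a a' R p q) (h1 : p < m) (h2 : m ≤ q)
    (hL : ¬ Low k s a (.gr p (m - 2))) (hR : ¬ Low k s a (.gr m q)) :
    Low k s a (.pk R p m q) ↔ Low k s a' (.pk R p m q) := by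
  obtain ⟨hd1, hd2, hd3⟩ := h.delta C
  have hk1 := one_le C.hk
  have hn := C.near (.pk R p m q) ⟨h.le, by
      have := h.far; have := C.hs0R; simp only [Dec.dst, Dec.lo, Dec.hi]; omega, by
      have := h.far; have := h.short; have := C.hR
      simp only [Dec.dst, Dec.lo, Dec.hi]; omega, by
      have := h.far; simp only [Dec.dst, Dec.lo, Dec.hi]; omega, h1, h2⟩
  have h9 : 6 * (ca * (R : ℝ)) ≤ ((max p (-q) : ℤ) : ℝ) := by
    have h8 : (0 : ℝ) ≤ R := by positivity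
    have h10 : 6 * (ca * (R : ℝ)) = 18 / 5 * R := by rw [ca]; ring
    rw [h10]
    linarith
  exact H18.low_pk C.hk C.hs0 C.hs1 hd1 (r := ca * R) (by positivity) h9
    (h.D_close C le_rfl le_rfl) (h.D_close C le_rfl (by omega)) (h.D_close C (by omega) le_rfl)
    (one_le_of_not_low hk1 C.hs0 (by omega) hL) (one_le_of_not_low hk1 C.hs0 (by omega) hR)
    (h.D_le C le_rfl (by omega)).2 (h.D_le C (by omega) le_rfl).1 hn

/-- peaks with the whole window in a good position, one direction -/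
lemma peakPat_of {b b' : ℤ → ℝ} {m n i j : ℤ} {S : Finset ℤ}
    (hgL : Low k s b (.gr i (m - 2)) ↔ Low k s b' (.gr i (m - 2)))
    (hgR : Low k s b (.gr m j) ↔ Low k s b' (.gr m j))
    (hc1 : ∀ p, i < p → p < m → (Low k s b (.c1 i (p - 1)) ↔ Low k s b' (.c1 i (p - 1))))
    (hc2 : ∀ r, n < r → r < j → (Low k s b (.c2 (r + 1) j) ↔ Low k s b' (.c2 (r + 1) j)))
    (hpk : ¬ Low k s b (.gr i (m - 2)) → ¬ Low k s b (.gr m j) →
      (Low k s b (.pk R i m j) ↔ Low k s b' (.pk R i m j)))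
    (P : PeakPat k s b R m n i j S) : PeakPat k s b' R m n i j S :=
  ⟨P.hmn, P.obj, P.i1, P.i2, P.j1, P.j2, fun hl => P.grL (hgL.2 hl),
    fun hl => P.grR (hgR.2 hl), P.spL, P.spR,
    fun p hp1 hp2 hp3 hl => P.coneL p hp1 hp2 hp3 ((hc1 p hp1 hp2).2 hl),
    fun r hr1 hr2 hr3 hl => P.coneR r hr1 hr2 hr3 ((hc2 r hr1 hr2).2 hl),
    (hpk P.grL P.grR).1 P.deep⟩

/-- peaks with the whole window in a good position -/
lemma peakPat_iff (C : Ctx k s a a' R) {m n i j : ℤ} {S : Finset ℤ} (h : Win k a a' R i j)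
    (hmn : m ≤ n) (i2 : (R : ℤ) ≤ 2 * (m - i)) (j2 : (R : ℤ) ≤ 2 * (j - n)) :
    PeakPat k s a R m n i j S ↔ PeakPat k s a' R m n i j S := by
  have hR := C.hR
  have hgL := low_gr C (h.mono (p' := i) (q' := m - 2) le_rfl (by omega) (by omega))
  have hgR := low_gr C (h.mono (p' := m) (q' := j) (by omega) (by omega) le_rfl)
  have hc1 : ∀ p, i < p → p < m → (Low k s a (.c1 i (p - 1)) ↔ Low k s a' (.c1 i (p - 1))) :=
    fun p hp1 hp2 => low_c1 C (h.mono le_rfl (by omega) (by omega))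
  have hc2 : ∀ r, n < r → r < j → (Low k s a (.c2 (r + 1) j) ↔ Low k s a' (.c2 (r + 1) j)) :=
    fun r hr1 hr2 => low_c2 C (h.mono (by omega) (by omega) le_rfl)
  refine ⟨peakPat_of hgL hgR hc1 hc2 fun h1 h2 =>
    low_pk_iff C h (by omega) (by omega) h1 h2,
    peakPat_of hgL.symm hgR.symm (fun p h1 h2 => (hc1 p h1 h2).symm)
      (fun r h1 h2 => (hc2 r h1 h2).symm) fun h1 h2 =>
    (low_pk_iff C h (by omega) (by omega) (fun h3 => h1 (hgL.1 h3))
      (fun h3 => h2 (hgR.1 h3))).symm⟩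

/-- **Frozen defects**, abstract form. -/
theorem defect_iff (C : Ctx k s a a' R) {o : ℤ} (hside : o + cZ * R < 0 ∨ 0 < o - cZ * R)
    (hcl : ∀ t : ℤ, |t - o| ≤ 2 * R → |a' t - a t| ≤ 40 * k * k ^ (-(|(t : ℝ)| / 2))) :
    Defect k s a o R ↔ Defect k s a' o R := by
  have hR := C.hR
  have hwin : ∀ p q, o - 2 * R ≤ p → p ≤ q → q ≤ o + 2 * R → q - p + 1 ≤ 3 * R →
      Win k a a' R p q := by
    intro p q h1 h2 h3 h4
    refine ⟨h2, ?_, h4, fun l hl1 hl2 => hcl l ?_⟩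
    · rcases hside with h | h
      · refine le_trans ?_ (le_max_right _ _)
        simp only [cZ] at h
        push_cast at h
        omega
      · refine le_trans ?_ (le_max_left _ _)
        simp only [cZ] at h
        push_cast at h
        omega
    · rw [abs_le]
      constructor <;> omega
  have hcrit : (o ∈ Crit k s a ↔ o ∈ Crit k s a') :=
    low_crit C (hwin o o (by omega) le_rfl (by omega) (by omega))
  have hnc : ∀ t, o - R ≤ t → t < o + R + 1 → (t ∈ NC k s a ↔ t ∈ NC k s a') := fun t h1 h2 =>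
    low_nc C (hwin t t (by omega) le_rfl (by omega) (by omega))
  have hms : ms (NC k s a) (o - R) (o + R + 1) = ms (NC k s a') (o - R) (o + R + 1) :=
    ms_congr hnc
  have hpk : ∀ n i j, (Peak k s a R o n i j ↔ Peak k s a' R o n i j) := by
    intro n i j
    have key : ∀ S, o ≤ n → (cP : ℤ) * (n - o + 1) ≤ R → o - i ≤ R → (R : ℤ) ≤ 2 * (o - i) →
        j - n ≤ R → (R : ℤ) ≤ 2 * (j - n) →
        (PeakPat k s a R o n i j S ↔ PeakPat k s a' R o n i j S) := by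
      intro S h1 h2 h3 h4 h5 h6
      have h7 : 1000000 * (n - o + 1) ≤ (R : ℤ) := by
        have : ((cP : ℕ) : ℤ) = 1000000 := by simp [cP]
        rw [this] at h2
        exact h2
      exact peakPat_iff C (hwin i j (by omega) (by omega) (by omega) (by omega)) h1 h4 h6
    constructor
    · rintro ⟨S, hS, P⟩
      exact ⟨S, hS, (key S P.hmn P.obj P.i1 P.i2 P.j1 P.j2).1 P⟩
    · rintro ⟨S, hS, P⟩
      exact ⟨S, hS, (key S P.hmn P.obj P.i1 P.i2 P.j1 P.j2).2 P⟩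
  unfold Defect
  rw [hms, hcrit]
  simp only [hpk]

end

lemma s0_ge {k : ℝ} (hk : (2 : ℝ) ^ 40 ≤ k) : 1000 ≤ Sk.s0 k := by
  have h1 : ((2 : ℝ) ^ 40) ^ (1 - 1 / 50 : ℝ) ≤ k ^ (1 - 1 / 50 : ℝ) :=
    Real.rpow_le_rpow (by norm_num) hk (by norm_num)
  have h2 : (2 : ℝ) ^ 10 ≤ ((2 : ℝ) ^ 40) ^ (1 - 1 / 50 : ℝ) := by
    rw [← Real.rpow_natCast 2 40, ← Real.rpow_mul (by norm_num), ← Real.rpow_natCast 2 10]
    exact Real.rpow_le_rpow_of_exponent_le (by norm_num) (by norm_num)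
  have h5 : 1 ≤ Real.log k := by
    rw [Real.le_log_iff_exp_le (by linarith [one_le hk])]
    exact (Real.exp_one_lt_d9.le.trans (by norm_num)).trans hk
  have h3 : (1000 : ℝ) ≤ Sk.s0 k := by
    have h4 : k ^ (1 - 1 / 50 : ℝ) * Real.log k ^ 2 ≤ (Sk.s0 k : ℝ) := Nat.le_ceil _
    have h6 : k ^ (1 - 1 / 50 : ℝ) * 1 ≤ k ^ (1 - 1 / 50 : ℝ) * Real.log k ^ 2 :=
      mul_le_mul_of_nonneg_left (one_le_pow₀ h5) (Real.rpow_nonneg (by linarith [one_le hk]) _)
    linarith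
  exact_mod_cast h3

lemma s0_le_of_defect {k s : ℝ} {a : ℤ → ℝ} {o : ℤ} {R : ℕ} (h : Defect k s a o R) :
    Sk.s0 k ≤ R := by
  rcases h with ⟨h, _⟩ | ⟨l, h, _⟩ | ⟨l, h, _⟩
  · exact h.ge
  · rw [h]; exact Nat.le_mul_of_pos_right _ (by positivity)
  · rw [h]; exact Nat.le_mul_of_pos_right _ (by positivity)

/-- **[FREEZE]** with an explicit threshold. -/
theorem freeze {k s : ℝ} (hk : (2 : ℝ) ^ 40 ≤ k) (hs : s ∈ Icc (0 : ℝ) 1) {z z' : ℝ × ℝ}
    (hz : z ∉ Near k s) {o : ℤ} {R : ℕ} (hside : o + cZ * R < 0 ∨ 0 < o - cZ * R)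
    (hcl : ∀ t : ℤ, |t - o| ≤ 2 * R → |orb k z' t - orb k z t| ≤ k ^ (-(|(t : ℝ)| / 2))) :
    Defect k s (ao k z) o R ↔ Defect k s (ao k z') o R := by
  have hk1 := one_le hk
  have hk2 : 2 ≤ k := le_trans (by norm_num) hk
  by_cases hR : Sk.s0 k ≤ R
  · have C : Ctx k s (ao k z) (ao k z') R := by
      refine ⟨hk, hs.1, hs.2, fun j => H504.abs_FTa_le hk2 _, fun j => H504.abs_FTa_le hk2 _,
        (s0_ge hk).trans hR, hR, fun d hd hn => hz ⟨d, hd, hn⟩⟩
    refine defect_iff C hside fun t ht => ?_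
    refine (H504.abs_FTa_sub_le (by linarith) _ _).trans ?_
    exact mul_le_mul_of_nonneg_left (hcl t ht) (by linarith)
  · exact ⟨fun h => absurd (s0_le_of_defect h) hR, fun h => absurd (s0_le_of_defect h) hR⟩

/-- **Block [FREEZE].** -/
theorem freeze_of : Freeze :=
  ⟨2 ^ 40, fun _ hk _ hs _ _ hz _ _ hside hcl => freeze hk hs hz hside hcl⟩

end Vale.Agent.P108.H18
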